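import Mathlib

/-!
# S0222 pre-build (GAP), helper2: work package J — an abstract filtration lemma

`filtration_bound`: a symmetric bilinear form `B` on functions on a finite type which is
"triangular" with respect to a filtration `V 0 ≤ V 1 ≤ ⋯ ≤ V N` (with diagonal entries `mu i`)
is bounded by `μ ⟨v, v⟩` on the vectors of `V N` orthogonal to `V 0`, if `mu i ≤ μ` for `i ≥ 1`.
Pure linear algebra; nothing about the shuffle.
-/

set_option autoImplicit false

namespace Crest.Agent.Helper2.Johnson

open Finset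

/-- Orthogonal decomposition with respect to the dot product on `X → ℝ`. -/
theorem exists_orth_decomp {X : Type*} [Fintype X] (K : Submodule ℝ (X → ℝ)) (v : X → ℝ) :
    ∃ v' ∈ K, ∀ u ∈ K, ∑ x, (v x - v' x) * u x = 0 := by
  classical
  let e : EuclideanSpace ℝ X ≃ₗ[ℝ] (X → ℝ) := WithLp.linearEquiv 2 ℝ (X → ℝ)
  let K' : Submodule ℝ (EuclideanSpace ℝ X) := K.map e.symm.toLinearMap
  obtain ⟨y, hy, z, hz, hyz⟩ := K'.exists_add_mem_mem_orthogonal (WithLp.toLp 2 v)
  obtain ⟨y0, hy0, hy0y⟩ := hy
  refine ⟨y0, hy0, ?_⟩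
  intro u hu
  have hu' : WithLp.toLp 2 u ∈ K' := ⟨u, hu, rfl⟩
  have h0 : inner ℝ (WithLp.toLp 2 u) z = 0 := (Submodule.mem_orthogonal K' z).mp hz _ hu'
  have hz' : z = WithLp.toLp 2 (v - y0) := by
    have h1 : y = WithLp.toLp 2 y0 := hy0y.symm
    rw [h1] at hyz
    have : z = WithLp.toLp 2 v - WithLp.toLp 2 y0 := by
      rw [hyz]; abel
    rw [this]
    rfl
  rw [hz', EuclideanSpace.inner_toLp_toLp] at h0
  simpa [dotProduct] using h0

theorem filtration_bound {X : Type*} [Fintype X]
    (B : (X → ℝ) → (X → ℝ) → ℝ)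
    (hB_symm : ∀ f g, B f g = B g f)
    (hB_add : ∀ f g h, B (f + g) h = B f h + B g h)
    (hB_smul : ∀ (r : ℝ) f h, B (r • f) h = r * B f h)
    (V : ℕ → Submodule ℝ (X → ℝ)) (hV : ∀ i, V i ≤ V (i + 1))
    (mu : ℕ → ℝ) (μ : ℝ) (N : ℕ)
    (h0 : ∀ v ∈ V 0, ∀ u ∈ V N, B v u = mu 0 * ∑ x, v x * u x)
    (hstep : ∀ i, i < N → ∀ v ∈ V (i + 1), ∃ w ∈ V i, ∀ u ∈ V N,
        B v u = mu (i + 1) * ∑ x, v x * u x + ∑ x, w x * u x)
    (hmu : ∀ i, i < N → mu (i + 1) ≤ μ) :
    ∀ v ∈ V N, (∀ u ∈ V 0, ∑ x, v x * u x = 0) → B v v ≤ μ * ∑ x, v x * v x := by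
  have hmono : ∀ i j, i ≤ j → V i ≤ V j := fun i j hij => monotone_nat_of_le_succ hV hij
  have hB_zero : ∀ h, B 0 h = 0 := by
    intro h
    have := hB_smul 0 0 h
    simpa using this
  have hB_add_right : ∀ f g h, B f (g + h) = B f g + B f h := by
    intro f g h
    rw [hB_symm, hB_add, hB_symm g, hB_symm h]
  have hcomm : ∀ f g : X → ℝ, ∑ x, f x * g x = ∑ x, g x * f x := by
    intro f g
    exact Finset.sum_congr rfl (fun x _ => mul_comm _ _)
  have hsq0 : ∀ f : X → ℝ, ∑ x, f x * f x = 0 → f = 0 := by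
    intro f h
    funext x
    have := (Finset.sum_eq_zero_iff_of_nonneg (fun x _ => mul_self_nonneg (f x))).mp h x
      (Finset.mem_univ x)
    simpa using this
  have main : ∀ n, n ≤ N → ∀ v ∈ V n, (∀ u ∈ V 0, ∑ x, v x * u x = 0) →
      B v v ≤ μ * ∑ x, v x * v x := by
    intro n
    induction n with
    | zero =>
      intro _ v hv hperp
      have hv0 : v = 0 := hsq0 v (hperp v hv)
      rw [hv0, hB_zero]
      simp
    | succ n ih =>
      intro hn v hv hperp
      obtain ⟨v', hv', horth⟩ := exists_orth_decomp (V n) v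
      obtain ⟨w, hw⟩ : ∃ w, w = v - v' := ⟨_, rfl⟩
      have hwmem : w ∈ V (n + 1) := by
        rw [hw]; exact Submodule.sub_mem _ hv (hV n hv')
      have hwN : w ∈ V N := hmono _ _ hn hwmem
      have hworth : ∀ u ∈ V n, ∑ x, w x * u x = 0 := by
        intro u hu
        rw [hw]
        exact horth u hu
      have hBw : ∀ u ∈ V n, B w u = 0 := by
        intro u hu
        rw [hB_symm]
        cases n with
        | zero =>
          rw [h0 u hu w hwN, hcomm, hworth u hu, mul_zero]
        | succ m =>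
          obtain ⟨z, hz, hzu⟩ := hstep m (by omega) u hu
          rw [hzu w hwN, hcomm u w, hworth u hu, hcomm z w, hworth z (hV m hz)]
          simp
      obtain ⟨z, hz, hzw⟩ := hstep n (by omega) w hwmem
      have hzN : z ∈ V N := hmono _ _ (by omega) hz
      have hz0 : z = 0 := by
        apply hsq0
        have h1 := hzw z hzN
        rw [hBw z hz, hworth z hz] at h1
        linarith
      have hBww : B w w = mu (n + 1) * ∑ x, w x * w x := by
        have h1 := hzw w hwN
        rw [h1, hz0]
        simp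
      have hBwv' : B w v' = 0 := hBw v' hv'
      have hv_eq : v = v' + w := by
        rw [hw]; abel
      have hv'perp : ∀ u ∈ V 0, ∑ x, v' x * u x = 0 := by
        intro u hu
        have h1 := hperp u hu
        have h2 := hworth u (hmono 0 n (Nat.zero_le n) hu)
        have h3 : ∑ x, v x * u x = ∑ x, v' x * u x + ∑ x, w x * u x := by
          rw [← Finset.sum_add_distrib]
          apply Finset.sum_congr rfl
          intro x _
          rw [hv_eq]
          simp [add_mul]
        linarith
      have ih' := ih (by omega) v' hv' hv'perp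
      have hBvv : B v v = B v' v' + B w w := by
        rw [hv_eq, hB_add, hB_add_right, hB_add_right, hBwv', hB_symm v' w, hBwv']
        ring
      have hnorm : ∑ x, v x * v x = ∑ x, v' x * v' x + ∑ x, w x * w x := by
        have h2 := hworth v' hv'
        have h3 : ∑ x, v x * v x =
            ∑ x, v' x * v' x + 2 * ∑ x, w x * v' x + ∑ x, w x * w x := by
          rw [Finset.mul_sum, ← Finset.sum_add_distrib, ← Finset.sum_add_distrib]
          apply Finset.sum_congr rfl
          intro x _
          rw [hv_eq]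
          simp only [Pi.add_apply]
          ring
        rw [h3, h2]
        ring
      have hww : 0 ≤ ∑ x, w x * w x := Finset.sum_nonneg (fun x _ => mul_self_nonneg _)
      have hm := hmu n (by omega)
      rw [hBvv, hBww, hnorm]
      nlinarith [ih', mul_le_mul_of_nonneg_right hm hww]
  exact main N le_rfl

end Crest.Agent.Helper2.Johnson
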