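import Crest.Agent.Helper2.Shuffle.JOpE

/-!
# S0222 pre-build (GAP), helper2: work package J — the counting lemma

For a row-invariant `u`, a list `L` of `p` disjoint pairs of cards and a further pair `a ≠ b`:
`∑ sL L * sep a b * u = (card ι - p) * ∑ sL L * ss a b * u`
(`sL` = "every pair of `L` is a column", `ss a b` = "`a`, `b` share a column",
`sep a b` = "`a`, `b` are in different rows"), hence
`∑ sepL L * u = (card ι)(card ι - 1)⋯(card ι - p + 1) * ∑ sL L * u`.
-/

set_option autoImplicit false
set_option linter.unusedSectionVars false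

namespace Crest.Agent.Helper2.Johnson

open Finset Crest.Agent.Helper13.Gap

variable {ι : Type*} [Fintype ι] [DecidableEq ι]

/-- Oriented pair: `a` is in the top row and `b` sits directly below it. -/
def oo (a b : ι × Bool) (c : Equiv.Perm (ι × Bool)) : ℝ :=
  if row c a = false ∧ row c b = true ∧ col c a = col c b then 1 else 0

/-- Indicator that `a` and `b` are in different rows. -/
def sep (a b : ι × Bool) (c : Equiv.Perm (ι × Bool)) : ℝ :=
  xx a c + xx b c - 2 * (xx a c * xx b c)

/-- Lists of pairs of cards. -/
abbrev PairList (ι : Type*) := List ((ι × Bool) × (ι × Bool))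

/-- The cards occurring in a list of pairs. -/
def cardsL : PairList ι → Finset (ι × Bool)
  | [] => ∅
  | (p :: L) => insert p.1 (insert p.2 (cardsL L))

/-- The pairs are pairs of distinct cards and pairwise disjoint. -/
def GoodL : PairList ι → Prop
  | [] => True
  | (p :: L) => p.1 ≠ p.2 ∧ p.1 ∉ cardsL L ∧ p.2 ∉ cardsL L ∧ GoodL L

/-- Every pair of the list is a column. -/
def sL (L : PairList ι) (c : Equiv.Perm (ι × Bool)) : ℝ := (L.map (fun p => ss p.1 p.2 c)).prod

/-- Every pair of the list is separated by the rows. -/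
def sepL (L : PairList ι) (c : Equiv.Perm (ι × Bool)) : ℝ :=
  (L.map (fun p => sep p.1 p.2 c)).prod

theorem sL_nil (c : Equiv.Perm (ι × Bool)) : sL ([] : PairList ι) c = 1 := rfl

theorem sL_cons (p : (ι × Bool) × (ι × Bool)) (L : PairList ι) (c : Equiv.Perm (ι × Bool)) :
    sL (p :: L) c = ss p.1 p.2 c * sL L c := by
  simp [sL]

theorem sepL_nil (c : Equiv.Perm (ι × Bool)) : sepL ([] : PairList ι) c = 1 := rfl

theorem sepL_cons (p : (ι × Bool) × (ι × Bool)) (L : PairList ι) (c : Equiv.Perm (ι × Bool)) :
    sepL (p :: L) c = sep p.1 p.2 c * sepL L c := by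
  simp [sepL]

/-! ### Elementary facts -/

theorem xx_sq (a : ι × Bool) (c : Equiv.Perm (ι × Bool)) : xx a c * xx a c = xx a c := by
  unfold xx; split <;> simp

theorem xx_top {a : ι × Bool} {c : Equiv.Perm (ι × Bool)} (h : row c a = false) : xx a c = 1 := by
  unfold xx; rw [if_pos h]

theorem xx_bot {a : ι × Bool} {c : Equiv.Perm (ι × Bool)} (h : row c a = true) : xx a c = 0 := by
  unfold xx; rw [if_neg]; simp [h]

theorem ss_eq_oo {a b : ι × Bool} (hab : a ≠ b) (c : Equiv.Perm (ι × Bool)) :
    ss a b c = oo a b c + oo b a c := by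
  unfold ss oo
  by_cases h : col c a = col c b
  · have hr := row_ne_of_col_eq c h hab
    rw [if_pos h]
    revert hr
    cases hra : row c a <;> cases hrb : row c b <;> simp [h]
  · have h' : ¬ col c b = col c a := fun e => h e.symm
    simp [h, h']

theorem sep_eq (a b : ι × Bool) (c : Equiv.Perm (ι × Bool)) :
    sep a b c = xx a c * (1 - xx b c) + xx b c * (1 - xx a c) := by
  unfold sep; ring

theorem sep_rowsE (a b : ι × Bool) (σ0 σ1 : Equiv.Perm ι) (c : Equiv.Perm (ι × Bool)) :
    sep a b (c * rowsE σ0 σ1) = sep a b c := rfl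

theorem xx_rowsE (a : ι × Bool) (σ0 σ1 : Equiv.Perm ι) (c : Equiv.Perm (ι × Bool)) :
    xx a (c * rowsE σ0 σ1) = xx a c := rfl

/-! ### Exchanging two cards -/

theorem col_swap_mul (b b' : ι × Bool) (c : Equiv.Perm (ι × Bool)) (x : ι × Bool) :
    col (Equiv.swap b b' * c) x = col c (Equiv.swap b b' x) := rfl

theorem row_swap_mul (b b' : ι × Bool) (c : Equiv.Perm (ι × Bool)) (x : ι × Bool) :
    row (Equiv.swap b b' * c) x = row c (Equiv.swap b b' x) := rfl

theorem swap_bottom (y y' : ι) :
    Equiv.swap ((y, true) : ι × Bool) (y', true) = rowsE 1 (Equiv.swap y y') := by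
  apply Equiv.ext
  rintro ⟨z, r⟩
  cases r
  · rw [Equiv.swap_apply_of_ne_of_ne (by simp) (by simp)]
    simp
  · simp only [rowsE_apply, if_true]
    by_cases h1 : z = y
    · subst h1
      rw [Equiv.swap_apply_left, Equiv.swap_apply_left]
    · by_cases h2 : z = y'
      · subst h2
        rw [Equiv.swap_apply_right, Equiv.swap_apply_right]
      · rw [Equiv.swap_apply_of_ne_of_ne (by simpa using h1) (by simpa using h2),
          Equiv.swap_apply_of_ne_of_ne h1 h2]

/-- Exchanging two cards of the bottom row does not change a row-invariant function. -/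
theorem u_swap_mul (u : Equiv.Perm (ι × Bool) → ℝ)
    (hu : ∀ (σ0 σ1 : Equiv.Perm ι) (c : Equiv.Perm (ι × Bool)), u (c * rowsE σ0 σ1) = u c)
    (b b' : ι × Bool) (c : Equiv.Perm (ι × Bool)) (hb : row c b = true) (hb' : row c b' = true) :
    u (Equiv.swap b b' * c) = u c := by
  rw [Equiv.swap_mul_eq_mul_swap]
  have e1 : c⁻¹ b = (col c b, true) := Prod.ext rfl hb
  have e2 : c⁻¹ b' = (col c b', true) := Prod.ext rfl hb'
  rw [e1, e2, swap_bottom, hu]

/-! ### Facts about `sL` -/

theorem sL_congr (L : PairList ι) (c c' : Equiv.Perm (ι × Bool))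
    (h : ∀ x ∈ cardsL L, col c x = col c' x) : sL L c = sL L c' := by
  induction L with
  | nil => rfl
  | cons p L ih =>
    rw [sL_cons, sL_cons]
    have h1 : col c p.1 = col c' p.1 := h p.1 (by simp [cardsL])
    have h2 : col c p.2 = col c' p.2 := h p.2 (by simp [cardsL])
    have h3 : sL L c = sL L c' := ih (fun x hx => h x (by simp [cardsL, hx]))
    unfold ss
    rw [h1, h2, h3]

theorem sL_zero_or_one (L : PairList ι) (c : Equiv.Perm (ι × Bool)) : sL L c = 0 ∨ sL L c = 1 := by
  induction L with
  | nil => right; rfl
  | cons p L ih =>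
    rw [sL_cons]
    unfold ss
    split
    · simpa using ih
    · left; simp

/-- If a card of the list shares its column with a card outside the list, some pair is not a
column. -/
theorem sL_eq_zero (L : PairList ι) (hL : GoodL L) (c : Equiv.Perm (ι × Bool)) {x a : ι × Bool}
    (hx : x ∈ cardsL L) (ha : a ∉ cardsL L) (hxa : col c x = col c a) : sL L c = 0 := by
  induction L with
  | nil => simp [cardsL] at hx
  | cons p L ih =>
    obtain ⟨hp, hp1, hp2, hL'⟩ := hL
    rw [sL_cons]
    have ha1 : a ≠ p.1 := fun h => ha (by simp [cardsL, h])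
    have ha2 : a ≠ p.2 := fun h => ha (by simp [cardsL, h])
    have ha' : a ∉ cardsL L := fun h => ha (by simp [cardsL, h])
    simp only [cardsL, Finset.mem_insert] at hx
    rcases hx with hx | hx | hx
    · rw [hx] at hxa
      have : ss p.1 p.2 c = 0 := by
        unfold ss
        rw [if_neg]
        intro h
        exact ha2 (eq_of_col_eq c hxa h (Ne.symm ha1) hp)
      rw [this, zero_mul]
    · rw [hx] at hxa
      have : ss p.1 p.2 c = 0 := by
        unfold ss
        rw [if_neg]
        intro h
        exact ha1 (eq_of_col_eq c hxa h.symm (Ne.symm ha2) (Ne.symm hp))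
      rw [this, zero_mul]
    · rw [ih hL' hx ha', mul_zero]

theorem card_cardsL (L : PairList ι) (hL : GoodL L) : (cardsL L).card = 2 * L.length := by
  induction L with
  | nil => rfl
  | cons p L ih =>
    obtain ⟨hp, hp1, hp2, hL'⟩ := hL
    have h2 : p.1 ∉ insert p.2 (cardsL L) := by
      simp only [Finset.mem_insert, not_or]
      exact ⟨hp, hp1⟩
    show (insert p.1 (insert p.2 (cardsL L))).card = 2 * (L.length + 1)
    rw [Finset.card_insert_of_notMem h2, Finset.card_insert_of_notMem hp2, ih hL']
    ring

theorem length_le_card (L : PairList ι) (hL : GoodL L) : L.length ≤ Fintype.card ι := by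
  have h1 := card_cardsL L hL
  have h2 := Finset.card_le_univ (cardsL L)
  rw [h1, Fintype.card_prod, Fintype.card_bool] at h2
  omega

/-- If all pairs are columns, exactly one card of each pair is in the bottom row. -/
theorem card_bottom_cardsL (L : PairList ι) (hL : GoodL L) (c : Equiv.Perm (ι × Bool))
    (hs : sL L c ≠ 0) : ((cardsL L).filter (fun x => row c x = true)).card = L.length := by
  induction L with
  | nil => rfl
  | cons p L ih =>
    obtain ⟨hp, hp1, hp2, hL'⟩ := hL
    rw [sL_cons] at hs
    have hs1 : ss p.1 p.2 c ≠ 0 := left_ne_zero_of_mul hs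
    have hs2 : sL L c ≠ 0 := right_ne_zero_of_mul hs
    have hcol : col c p.1 = col c p.2 := by
      by_contra h
      apply hs1
      unfold ss
      rw [if_neg h]
    have hr := row_ne_of_col_eq c hcol hp
    have h2 : p.1 ∉ insert p.2 (cardsL L) := by
      simp only [Finset.mem_insert, not_or]
      exact ⟨hp, hp1⟩
    show ((insert p.1 (insert p.2 (cardsL L))).filter (fun x => row c x = true)).card = L.length + 1
    rw [Finset.filter_insert, Finset.filter_insert]
    have ih' := ih hL' hs2
    by_cases h1 : row c p.1 = true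
    · have h2' : ¬ row c p.2 = true := by
        intro h; exact hr (h1.trans h.symm)
      rw [if_pos h1, if_neg h2', Finset.card_insert_of_notMem, ih']
      intro hmem
      exact hp1 (Finset.mem_of_mem_filter _ hmem)
    · have h2' : row c p.2 = true := by
        revert hr h1
        cases row c p.1 <;> cases row c p.2 <;> simp
      rw [if_neg h1, if_pos h2', Finset.card_insert_of_notMem, ih']
      intro hmem
      exact hp2 (Finset.mem_of_mem_filter _ hmem)

/-- The bottom row holds `card ι` cards. -/
theorem card_bottom (c : Equiv.Perm (ι × Bool)) :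
    (Finset.univ.filter (fun x : ι × Bool => row c x = true)).card = Fintype.card ι := by
  have h : (Finset.univ.filter (fun x : ι × Bool => row c x = true)) =
      (Finset.univ : Finset ι).map
        ⟨fun y => c (y, true), fun y y' h => (Prod.mk.inj (c.injective h)).1⟩ := by
    ext x
    simp only [Finset.mem_filter, Finset.mem_univ, true_and, Finset.mem_map]
    constructor
    · intro hx
      refine ⟨col c x, ?_⟩
      have : c.symm x = (col c x, true) := Prod.ext rfl hx
      show c (col c x, true) = x
      rw [← this, Equiv.apply_symm_apply]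
    · rintro ⟨y, rfl⟩
      show (c.symm (c (y, true))).2 = true
      rw [Equiv.symm_apply_apply]
  rw [h, Finset.card_map, Finset.card_univ]

/-- Number of cards of the bottom row outside the list, when all pairs are columns. -/
theorem card_bottom_outside (L : PairList ι) (hL : GoodL L) (c : Equiv.Perm (ι × Bool))
    (hs : sL L c ≠ 0) :
    ((Finset.univ.filter (fun x : ι × Bool => row c x = true ∧ x ∉ cardsL L)).card : ℝ) =
      (Fintype.card ι : ℝ) - L.length := by
  have h1 := Finset.card_filter_add_card_filter_not
    (s := Finset.univ.filter (fun x : ι × Bool => row c x = true)) (fun x => x ∈ cardsL L)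
  rw [card_bottom] at h1
  have h2 : (Finset.univ.filter (fun x : ι × Bool => row c x = true)).filter
      (fun x => x ∈ cardsL L) = (cardsL L).filter (fun x => row c x = true) := by
    ext x
    simp only [Finset.mem_filter, Finset.mem_univ, true_and]
    tauto
  have h3 : (Finset.univ.filter (fun x : ι × Bool => row c x = true)).filter
      (fun x => ¬ x ∈ cardsL L) =
      Finset.univ.filter (fun x : ι × Bool => row c x = true ∧ x ∉ cardsL L) := by
    ext x
    simp only [Finset.mem_filter, Finset.mem_univ, true_and]
  rw [h2, h3, card_bottom_cardsL L hL c hs] at h1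
  have h4 : ((L.length + (Finset.univ.filter
      (fun x : ι × Bool => row c x = true ∧ x ∉ cardsL L)).card : ℕ) : ℝ) = (Fintype.card ι : ℝ) := by
    rw [h1]
  push_cast at h4
  linarith

/-! ### The oriented counting step -/

theorem key_identity (L : PairList ι) (hL : GoodL L) (a b b' : ι × Bool) (hab : a ≠ b)
    (ha : a ∉ cardsL L) (hb : b ∉ cardsL L) (u : Equiv.Perm (ι × Bool) → ℝ)
    (hu : ∀ (σ0 σ1 : Equiv.Perm ι) (c : Equiv.Perm (ι × Bool)), u (c * rowsE σ0 σ1) = u c)
    (c : Equiv.Perm (ι × Bool)) :
    (if (Equiv.swap b b' * c) (col (Equiv.swap b b' * c) a, true) = b' then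
        sL L (Equiv.swap b b' * c) *
          (xx a (Equiv.swap b b' * c) * (1 - xx b (Equiv.swap b b' * c))) *
          u (Equiv.swap b b' * c) else 0)
      = oo a b c * (if row c b' = true ∧ b' ∉ cardsL L then 1 else 0) * sL L c * u c := by
  by_cases hb'a : b' = a
  · -- the card below `a` cannot be `a`
    have hR : oo a b c * (if row c b' = true ∧ b' ∉ cardsL L then (1 : ℝ) else 0) = 0 := by
      unfold oo
      by_cases h : row c a = false ∧ row c b = true ∧ col c a = col c b
      · rw [if_pos h, if_neg, mul_zero]
        rintro ⟨h1, _⟩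
        rw [hb'a, h.1] at h1
        exact Bool.false_ne_true h1
      · rw [if_neg h, zero_mul]
    rw [hR, zero_mul, zero_mul]
    split
    · rename_i hcond
      have hrow : row (Equiv.swap b b' * c) a = true := by
        have : (Equiv.swap b b' * c).symm a = (col (Equiv.swap b b' * c) a, true) := by
          rw [Equiv.symm_apply_eq, hcond, hb'a]
        show ((Equiv.swap b b' * c).symm a).2 = true
        rw [this]
      rw [xx_bot hrow]
      ring
    · rfl
  · have hτa : Equiv.swap b b' a = a := Equiv.swap_apply_of_ne_of_ne hab (Ne.symm hb'a)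
    have hcola : col (Equiv.swap b b' * c) a = col c a := by rw [col_swap_mul, hτa]
    have hxa : xx a (Equiv.swap b b' * c) = xx a c := by
      unfold xx; rw [row_swap_mul, hτa]
    have hxb : xx b (Equiv.swap b b' * c) = xx b' c := by
      unfold xx; rw [row_swap_mul, Equiv.swap_apply_left]
    have hcond : (Equiv.swap b b' * c) (col (Equiv.swap b b' * c) a, true) = b' ↔
        c (col c a, true) = b := by
      rw [hcola]
      show Equiv.swap b b' (c (col c a, true)) = b' ↔ _
      constructor
      · intro h
        have := congrArg (Equiv.swap b b') h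
        rwa [Equiv.swap_apply_self, Equiv.swap_apply_right] at this
      · intro h
        rw [h, Equiv.swap_apply_left]
    rw [hxa, hxb]
    by_cases hcb : c (col c a, true) = b
    · rw [if_pos (hcond.mpr hcb)]
      have hsymm : c.symm b = (col c a, true) := by rw [Equiv.symm_apply_eq, hcb]
      have hrb : row c b = true := by show (c.symm b).2 = true; rw [hsymm]
      have hcolb : col c b = col c a := by show (c.symm b).1 = col c a; rw [hsymm]
      by_cases hra : row c a = false
      · have hoo : oo a b c = 1 := by
          unfold oo; rw [if_pos ⟨hra, hrb, hcolb.symm⟩]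
        rw [hoo, xx_top hra]
        by_cases hrb' : row c b' = true
        · rw [xx_bot hrb', u_swap_mul u hu b b' c hrb hrb']
          by_cases hmem : b' ∈ cardsL L
          · have hz : sL L (Equiv.swap b b' * c) = 0 := by
              apply sL_eq_zero L hL (Equiv.swap b b' * c) hmem ha
              rw [col_swap_mul, col_swap_mul, hτa, Equiv.swap_apply_right, hcolb]
            rw [hz, if_neg (fun h => h.2 hmem)]
            ring
          · have he : sL L (Equiv.swap b b' * c) = sL L c := by
              apply sL_congr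
              intro x hx
              have hxb : x ≠ b := fun h => hb (by rw [← h]; exact hx)
              have hxb' : x ≠ b' := fun h => hmem (by rw [← h]; exact hx)
              rw [col_swap_mul, Equiv.swap_apply_of_ne_of_ne hxb hxb']
            rw [he, if_pos ⟨hrb', hmem⟩]
            ring
        · have hrb'' : row c b' = false := by
            revert hrb'; cases row c b' <;> simp
          rw [xx_top hrb'', if_neg (fun h => hrb' h.1)]
          ring
      · have hoo : oo a b c = 0 := by
          unfold oo; rw [if_neg (fun h => hra h.1)]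
        have hxa0 : xx a c = 0 := by
          unfold xx; rw [if_neg hra]
        rw [hoo, hxa0]
        ring
    · rw [if_neg (fun h => hcb (hcond.mp h))]
      have hoo : oo a b c = 0 := by
        unfold oo
        rw [if_neg]
        rintro ⟨_, h2, h3⟩
        apply hcb
        have : c.symm b = (col c a, true) := Prod.ext h3.symm h2
        rw [← this, Equiv.apply_symm_apply]
      rw [hoo]
      ring

theorem count_step_oriented (L : PairList ι) (hL : GoodL L) (a b : ι × Bool) (hab : a ≠ b)
    (ha : a ∉ cardsL L) (hb : b ∉ cardsL L) (u : Equiv.Perm (ι × Bool) → ℝ)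
    (hu : ∀ (σ0 σ1 : Equiv.Perm ι) (c : Equiv.Perm (ι × Bool)), u (c * rowsE σ0 σ1) = u c) :
    ∑ c, sL L c * (xx a c * (1 - xx b c)) * u c
      = ((Fintype.card ι : ℝ) - L.length) * ∑ c, sL L c * oo a b c * u c := by
  have h1 : ∀ c : Equiv.Perm (ι × Bool), sL L c * (xx a c * (1 - xx b c)) * u c =
      ∑ b' : ι × Bool, if c (col c a, true) = b' then
        sL L c * (xx a c * (1 - xx b c)) * u c else 0 := by
    intro c
    rw [Finset.sum_ite_eq]
    simp
  have h2 : ∀ b' : ι × Bool, ∑ c : Equiv.Perm (ι × Bool),
      (if c (col c a, true) = b' then sL L c * (xx a c * (1 - xx b c)) * u c else 0)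
      = ∑ c : Equiv.Perm (ι × Bool),
        oo a b c * (if row c b' = true ∧ b' ∉ cardsL L then 1 else 0) * sL L c * u c := by
    intro b'
    rw [← Equiv.sum_comp (Equiv.mulLeft (Equiv.swap b b'))
      (fun c => if c (col c a, true) = b' then sL L c * (xx a c * (1 - xx b c)) * u c else 0)]
    apply Finset.sum_congr rfl
    intro c _
    exact key_identity L hL a b b' hab ha hb u hu c
  calc ∑ c, sL L c * (xx a c * (1 - xx b c)) * u c
      = ∑ c, ∑ b' : ι × Bool, (if c (col c a, true) = b' then
          sL L c * (xx a c * (1 - xx b c)) * u c else 0) :=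
        Finset.sum_congr rfl (fun c _ => h1 c)
    _ = ∑ b' : ι × Bool, ∑ c : Equiv.Perm (ι × Bool), (if c (col c a, true) = b' then
          sL L c * (xx a c * (1 - xx b c)) * u c else 0) := Finset.sum_comm
    _ = ∑ b' : ι × Bool, ∑ c : Equiv.Perm (ι × Bool),
          oo a b c * (if row c b' = true ∧ b' ∉ cardsL L then 1 else 0) * sL L c * u c :=
        Finset.sum_congr rfl (fun b' _ => h2 b')
    _ = ∑ c : Equiv.Perm (ι × Bool), ∑ b' : ι × Bool,
          oo a b c * (if row c b' = true ∧ b' ∉ cardsL L then 1 else 0) * sL L c * u c :=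
        Finset.sum_comm
    _ = ∑ c : Equiv.Perm (ι × Bool),
          ((Fintype.card ι : ℝ) - L.length) * (sL L c * oo a b c * u c) := by
        apply Finset.sum_congr rfl
        intro c _
        rcases sL_zero_or_one L c with h0 | h1'
        · rw [h0]
          simp
        · have hne : sL L c ≠ 0 := by rw [h1']; exact one_ne_zero
          have hcount := card_bottom_outside L hL c hne
          have hsum : ∑ b' : ι × Bool,
              (if row c b' = true ∧ b' ∉ cardsL L then (1 : ℝ) else 0) =
              (Fintype.card ι : ℝ) - L.length := by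
            rw [← hcount, Finset.sum_boole]
          rw [← hsum, Finset.sum_mul]
          apply Finset.sum_congr rfl
          intro b' _
          ring
    _ = ((Fintype.card ι : ℝ) - L.length) * ∑ c, sL L c * oo a b c * u c := by
        rw [Finset.mul_sum]

/-- The counting step. -/
theorem count_step (L : PairList ι) (hL : GoodL L) (a b : ι × Bool) (hab : a ≠ b)
    (ha : a ∉ cardsL L) (hb : b ∉ cardsL L) (u : Equiv.Perm (ι × Bool) → ℝ)
    (hu : ∀ (σ0 σ1 : Equiv.Perm ι) (c : Equiv.Perm (ι × Bool)), u (c * rowsE σ0 σ1) = u c) :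
    ∑ c, sL L c * sep a b c * u c
      = ((Fintype.card ι : ℝ) - L.length) * ∑ c, sL L c * ss a b c * u c := by
  have h1 := count_step_oriented L hL a b hab ha hb u hu
  have h2 := count_step_oriented L hL b a (Ne.symm hab) hb ha u hu
  have e1 : ∑ c, sL L c * sep a b c * u c =
      ∑ c, sL L c * (xx a c * (1 - xx b c)) * u c + ∑ c, sL L c * (xx b c * (1 - xx a c)) * u c := by
    rw [← Finset.sum_add_distrib]
    apply Finset.sum_congr rfl
    intro c _
    rw [sep_eq]
    ring
  have e2 : ∑ c, sL L c * ss a b c * u c =
      ∑ c, sL L c * oo a b c * u c + ∑ c, sL L c * oo b a c * u c := by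
    rw [← Finset.sum_add_distrib]
    apply Finset.sum_congr rfl
    intro c _
    rw [ss_eq_oo hab]
    ring
  rw [e1, e2, h1, h2]
  ring

/-- `PP M p = M (M - 1) ⋯ (M - p + 1)` as a real number. -/
noncomputable def PP (M p : ℕ) : ℝ := ∏ l ∈ Finset.range p, ((M : ℝ) - l)

theorem PP_zero (M : ℕ) : PP M 0 = 1 := by simp [PP]

theorem PP_succ (M p : ℕ) : PP M (p + 1) = PP M p * ((M : ℝ) - p) := by
  unfold PP; rw [Finset.prod_range_succ]

theorem PP_pos (M p : ℕ) (h : p ≤ M) : 0 < PP M p := by
  unfold PP
  apply Finset.prod_pos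
  intro l hl
  have : l < M := lt_of_lt_of_le (Finset.mem_range.mp hl) h
  have : (l : ℝ) < M := by exact_mod_cast this
  linarith

/-- The counting lemma. -/
theorem count_pairs (L : PairList ι) (hL : GoodL L) (u : Equiv.Perm (ι × Bool) → ℝ)
    (hu : ∀ (σ0 σ1 : Equiv.Perm ι) (c : Equiv.Perm (ι × Bool)), u (c * rowsE σ0 σ1) = u c) :
    ∑ c, sepL L c * u c = PP (Fintype.card ι) L.length * ∑ c, sL L c * u c := by
  induction L generalizing u with
  | nil =>
    simp [sepL_nil, sL_nil, PP_zero]
  | cons p L ih =>
    obtain ⟨hp, hp1, hp2, hL'⟩ := hL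
    have hu' : ∀ (σ0 σ1 : Equiv.Perm ι) (c : Equiv.Perm (ι × Bool)),
        (fun c => sep p.1 p.2 c * u c) (c * rowsE σ0 σ1) = (fun c => sep p.1 p.2 c * u c) c := by
      intro σ0 σ1 c
      show sep p.1 p.2 (c * rowsE σ0 σ1) * u (c * rowsE σ0 σ1) = sep p.1 p.2 c * u c
      rw [sep_rowsE, hu]
    have h1 := ih hL' (fun c => sep p.1 p.2 c * u c) hu'
    have h2 := count_step L hL' p.1 p.2 hp hp1 hp2 u hu
    have e1 : ∑ c, sepL (p :: L) c * u c = ∑ c, sepL L c * (sep p.1 p.2 c * u c) := by
      apply Finset.sum_congr rfl
      intro c _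
      rw [sepL_cons]
      ring
    have e2 : ∑ c, sL L c * (sep p.1 p.2 c * u c) = ∑ c, sL L c * sep p.1 p.2 c * u c := by
      apply Finset.sum_congr rfl
      intro c _
      ring
    have e3 : ∑ c, sL (p :: L) c * u c = ∑ c, sL L c * ss p.1 p.2 c * u c := by
      apply Finset.sum_congr rfl
      intro c _
      rw [sL_cons]
      ring
    rw [e1, h1, e2, h2, e3, List.length_cons, PP_succ]
    ring

end Crest.Agent.Helper2.Johnson
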