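import Mathlib
import Crest.Agent.Helper13.Shuffle.GapDefs

/-!
# S0222 pre-build (GAP), helper2: work package J (Johnson-chain bound) — definitions

Model of `Crest.Agent.Helper13.Gap`: positions and cards are both labelled by `ι × Bool`,
an arrangement is `c : Equiv.Perm (ι × Bool)`, `c p` = the card at position `p`, so card `a`
sits at position `c.symm a`.  Nothing about the row is proved here.
-/

set_option autoImplicit false

namespace Crest.Agent.Helper2.Johnson

open Finset Crest.Agent.Helper13.Gap

variable {ι : Type*}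

/-- Column of card `a` in the arrangement `c`. -/
def col (c : Equiv.Perm (ι × Bool)) (a : ι × Bool) : ι := (c.symm a).1

/-- Row of card `a` in the arrangement `c` (`false` = top row). -/
def row (c : Equiv.Perm (ι × Bool)) (a : ι × Bool) : Bool := (c.symm a).2

/-- Indicator that card `a` is in the top row. -/
def xx (a : ι × Bool) (c : Equiv.Perm (ι × Bool)) : ℝ := if row c a = false then 1 else 0

/-- Monomial: all cards of `W` are in the top row. -/
def mm (W : Finset (ι × Bool)) (c : Equiv.Perm (ι × Bool)) : ℝ := ∏ a ∈ W, xx a c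

/-- Degree filtration: the span of the monomials of degree at most `i`. -/
def VV (ι : Type*) (i : ℕ) : Submodule ℝ (Equiv.Perm (ι × Bool) → ℝ) :=
  Submodule.span ℝ {f | ∃ W : Finset (ι × Bool), W.card ≤ i ∧ f = mm W}

theorem col_mul_swapE (c : Equiv.Perm (ι × Bool)) (s : ι → Bool) (a : ι × Bool) :
    col (c * swapE s) a = col c a := rfl

theorem row_mul_swapE (c : Equiv.Perm (ι × Bool)) (s : ι → Bool) (a : ι × Bool) :
    row (c * swapE s) a = xor (row c a) (s (col c a)) := rfl

theorem row_mul_rowsE (c : Equiv.Perm (ι × Bool)) (σ0 σ1 : Equiv.Perm ι) (a : ι × Bool) :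
    row (c * rowsE σ0 σ1) a = row c a := rfl

theorem col_mul_rowsE (c : Equiv.Perm (ι × Bool)) (σ0 σ1 : Equiv.Perm ι) (a : ι × Bool) :
    col (c * rowsE σ0 σ1) a = if row c a then σ1.symm (col c a) else σ0.symm (col c a) := rfl

theorem mm_mem_VV (W : Finset (ι × Bool)) {i : ℕ} (h : W.card ≤ i) : mm W ∈ VV ι i :=
  Submodule.subset_span ⟨W, h, rfl⟩

theorem VV_mono {i j : ℕ} (h : i ≤ j) : VV ι i ≤ VV ι j := by
  apply Submodule.span_mono
  rintro f ⟨W, hW, rfl⟩
  exact ⟨W, le_trans hW h, rfl⟩

end Crest.Agent.Helper2.Johnson
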