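import Crest.Agent.Helper2.Shuffle.JDefs

/-!
# S0222 pre-build (GAP), helper2: work package J — the column-swap average on monomials

* `opE` is a self-adjoint idempotent;
* `opE (mm W) c = (1/2)^|W| * DD W c`, `DD W c = 1` iff the cards of `W` sit in distinct columns;
* `DD (insert a W) = DD W - ∑ b ∈ W, ss a b * DD (W.erase b)`, `ss a b` = "same column".
-/

set_option autoImplicit false
set_option linter.unusedSectionVars false

namespace Crest.Agent.Helper2.Johnson

open Finset Crest.Agent.Helper13.Gap

variable {ι : Type*} [Fintype ι] [DecidableEq ι]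

/-! ### `opE` is a self-adjoint idempotent -/

omit [Fintype ι] [DecidableEq ι] in
theorem swapE_mul_swapE (s t : ι → Bool) :
    swapE s * swapE t = swapE (fun y => xor (s y) (t y)) := by
  apply Equiv.ext
  rintro ⟨y, b⟩
  simp only [Equiv.Perm.mul_apply, swapE_apply]
  cases b <;> cases s y <;> cases t y <;> rfl

omit [Fintype ι] [DecidableEq ι] in
theorem swapE_mul_self (s : ι → Bool) : swapE s * swapE s = 1 := by
  apply Equiv.ext
  rintro ⟨y, b⟩
  simp only [Equiv.Perm.mul_apply, swapE_apply, Equiv.Perm.one_apply]
  cases b <;> cases s y <;> rfl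

/-- `xor` with a fixed pattern, as a bijection of the swap patterns. -/
def xorEquiv (s : ι → Bool) : (ι → Bool) ≃ (ι → Bool) where
  toFun t := fun y => xor (s y) (t y)
  invFun t := fun y => xor (s y) (t y)
  left_inv t := by
    funext y
    show xor (s y) (xor (s y) (t y)) = t y
    cases s y <;> cases t y <;> rfl
  right_inv t := by
    funext y
    show xor (s y) (xor (s y) (t y)) = t y
    cases s y <;> cases t y <;> rfl

theorem opE_selfadj (f g : Equiv.Perm (ι × Bool) → ℝ) :
    ∑ c, opE f c * g c = ∑ c, f c * opE g c := by
  have h1 : ∀ s : ι → Bool, ∑ c, f (c * swapE s) * g c = ∑ c, f c * g (c * swapE s) := by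
    intro s
    rw [← Equiv.sum_comp (Equiv.mulRight (swapE s)) (fun c => f c * g (c * swapE s))]
    apply Finset.sum_congr rfl
    intro c _
    simp only [Equiv.coe_mulRight, mul_assoc, swapE_mul_self, mul_one]
  have hL : ∑ c, opE f c * g c = (∑ s : ι → Bool, ∑ c, f (c * swapE s) * g c) / 2 ^ Fintype.card ι := by
    unfold opE
    rw [Finset.sum_comm, Finset.sum_div]
    apply Finset.sum_congr rfl
    intro c _
    rw [div_mul_eq_mul_div, Finset.sum_mul]
  have hR : ∑ c, f c * opE g c = (∑ s : ι → Bool, ∑ c, f c * g (c * swapE s)) / 2 ^ Fintype.card ι := by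
    unfold opE
    rw [Finset.sum_comm, Finset.sum_div]
    apply Finset.sum_congr rfl
    intro c _
    rw [← mul_div_assoc, Finset.mul_sum]
  rw [hL, hR]
  congr 1
  exact Finset.sum_congr rfl (fun s _ => h1 s)

theorem opE_idem (f : Equiv.Perm (ι × Bool) → ℝ) : opE (opE f) = opE f := by
  funext c
  have h1 : ∀ s : ι → Bool, opE f (c * swapE s) = opE f c := by
    intro s
    unfold opE
    congr 1
    rw [← Equiv.sum_comp (xorEquiv s) (fun t => f (c * swapE t))]
    apply Finset.sum_congr rfl
    intro t _
    rw [mul_assoc, swapE_mul_swapE]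
    rfl
  show (∑ s : ι → Bool, opE f (c * swapE s)) / 2 ^ Fintype.card ι = opE f c
  simp_rw [h1]
  rw [Finset.sum_const, Finset.card_univ, Fintype.card_fun, Fintype.card_bool, nsmul_eq_mul]
  have h : ((2 : ℝ) ^ Fintype.card ι) ≠ 0 := by positivity
  push_cast
  field_simp

/-- The bilinear form `⟨E f, E g⟩ = ⟨E f, g⟩`. -/
theorem sum_opE_mul_opE (f g : Equiv.Perm (ι × Bool) → ℝ) :
    ∑ c, opE f c * opE g c = ∑ c, opE f c * g c := by
  rw [← opE_selfadj (opE f) g, opE_idem]

theorem opE_add' (f g : Equiv.Perm (ι × Bool) → ℝ) : opE (f + g) = opE f + opE g := by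
  funext c
  simp only [opE, Pi.add_apply, Finset.sum_add_distrib, add_div]

theorem opE_smul (r : ℝ) (f : Equiv.Perm (ι × Bool) → ℝ) : opE (r • f) = r • opE f := by
  funext c
  simp only [opE, Pi.smul_apply, smul_eq_mul, ← Finset.mul_sum, mul_div_assoc]

theorem opE_one : opE (fun _ : Equiv.Perm (ι × Bool) => (1 : ℝ)) = fun _ => 1 := by
  funext c
  unfold opE
  rw [Finset.sum_const, Finset.card_univ, Fintype.card_fun, Fintype.card_bool, nsmul_eq_mul]
  have h : ((2 : ℝ) ^ Fintype.card ι) ≠ 0 := by positivity
  push_cast
  field_simp

theorem sum_opE (f : Equiv.Perm (ι × Bool) → ℝ) : ∑ c, opE f c = ∑ c, f c := by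
  have h := opE_selfadj f (fun _ => 1)
  rw [opE_one] at h
  simpa using h

/-! ### Columns hold two cards -/

omit [Fintype ι] [DecidableEq ι] in
theorem row_ne_of_col_eq (c : Equiv.Perm (ι × Bool)) {a b : ι × Bool} (h : col c a = col c b)
    (hab : a ≠ b) : row c a ≠ row c b := by
  intro hr
  apply hab
  apply c.symm.injective
  exact Prod.ext h hr

omit [Fintype ι] [DecidableEq ι] in
/-- Three cards cannot share a column. -/
theorem eq_of_col_eq (c : Equiv.Perm (ι × Bool)) {a b b' : ι × Bool} (h : col c a = col c b)
    (h' : col c a = col c b') (hab : a ≠ b) (hab' : a ≠ b') : b = b' := by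
  have h1 := row_ne_of_col_eq c h hab
  have h2 := row_ne_of_col_eq c h' hab'
  apply c.symm.injective
  apply Prod.ext (h.symm.trans h')
  show row c b = row c b'
  revert h1 h2
  cases row c a <;> cases row c b <;> cases row c b' <;> simp

omit [Fintype ι] [DecidableEq ι] in
theorem xx_mul_swapE (c : Equiv.Perm (ι × Bool)) (s : ι → Bool) (a : ι × Bool) :
    xx a (c * swapE s) = if xor (row c a) (s (col c a)) = false then 1 else 0 := rfl

/-! ### `E` on monomials -/

open Classical in
/-- `DD W c = 1` iff the cards of `W` sit in pairwise distinct columns of `c`. -/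
noncomputable def DD (W : Finset (ι × Bool)) (c : Equiv.Perm (ι × Bool)) : ℝ :=
  if Set.InjOn (col c) (W : Set (ι × Bool)) then 1 else 0

/-- Flip one coordinate of a swap pattern. -/
def flipAt (y : ι) : (ι → Bool) ≃ (ι → Bool) where
  toFun s := Function.update s y (!s y)
  invFun s := Function.update s y (!s y)
  left_inv s := by
    funext z
    by_cases h : z = y
    · subst h; simp
    · simp [Function.update_of_ne h]
  right_inv s := by
    funext z
    by_cases h : z = y
    · subst h; simp
    · simp [Function.update_of_ne h]

omit [Fintype ι] in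
theorem mm_insert {a : ι × Bool} {W : Finset (ι × Bool)} (ha : a ∉ W)
    (c : Equiv.Perm (ι × Bool)) : mm (insert a W) c = xx a c * mm W c := by
  unfold mm
  rw [Finset.prod_insert ha]

theorem opE_mm (W : Finset (ι × Bool)) (c : Equiv.Perm (ι × Bool)) :
    opE (mm W) c = (1 / 2 : ℝ) ^ W.card * DD W c := by
  induction W using Finset.induction_on with
  | empty =>
    have h1 : (mm (∅ : Finset (ι × Bool))) = fun _ => (1 : ℝ) := by
      funext c; simp [mm]
    rw [h1, opE_one]
    simp [DD]
  | insert a W ha ih =>
    rw [Finset.card_insert_of_notMem ha]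
    by_cases hcol : ∃ b ∈ W, col c b = col c a
    · obtain ⟨b, hb, hba⟩ := hcol
      have hne : a ≠ b := fun h => ha (h ▸ hb)
      have hD : DD (insert a W) c = 0 := by
        unfold DD
        rw [if_neg]
        intro hinj
        exact hne (hinj (by simp) (by simp [hb]) hba.symm)
      rw [hD, mul_zero]
      unfold opE
      rw [Finset.sum_eq_zero, zero_div]
      intro s _
      rw [mm_insert ha]
      have hb' : mm W (c * swapE s) = xx b (c * swapE s) * mm (W.erase b) (c * swapE s) := by
        unfold mm
        exact (Finset.mul_prod_erase W (fun x => xx x (c * swapE s)) hb).symm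
      rw [hb', ← mul_assoc]
      have hz : xx a (c * swapE s) * xx b (c * swapE s) = 0 := by
        rw [xx_mul_swapE, xx_mul_swapE, hba]
        have hr := row_ne_of_col_eq c hba.symm hne
        revert hr
        cases row c a <;> cases row c b <;> cases s (col c a) <;> simp
      rw [hz, zero_mul]
    · have hD : DD (insert a W) c = DD W c := by
        unfold DD
        have : Set.InjOn (col c) (↑(insert a W) : Set (ι × Bool)) ↔
            Set.InjOn (col c) (↑W : Set (ι × Bool)) := by
          rw [Finset.coe_insert, Set.injOn_insert (by simpa using ha)]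
          constructor
          · exact fun h => h.1
          · intro h
            refine ⟨h, ?_⟩
            rintro ⟨b, hb, hba⟩
            exact hcol ⟨b, by simpa using hb, hba⟩
        simp only [this]
      rw [hD, pow_succ, mul_assoc, mul_comm (1 / 2 : ℝ), ← mul_assoc, ← ih]
      -- flip the column of `a`
      set y := col c a with hy
      have hflip : ∑ s : ι → Bool, mm (insert a W) (c * swapE s) =
          ∑ s : ι → Bool, (1 - xx a (c * swapE s)) * mm W (c * swapE s) := by
        rw [← Equiv.sum_comp (flipAt y) (fun s => mm (insert a W) (c * swapE s))]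
        apply Finset.sum_congr rfl
        intro s _
        rw [mm_insert ha]
        have e1 : xx a (c * swapE (flipAt y s)) = 1 - xx a (c * swapE s) := by
          rw [xx_mul_swapE, xx_mul_swapE]
          show (if xor (row c a) (Function.update s y (!s y) (col c a)) = false then (1:ℝ) else 0) = _
          rw [← hy, Function.update_self]
          cases row c a <;> cases s y <;> simp
        have e2 : mm W (c * swapE (flipAt y s)) = mm W (c * swapE s) := by
          unfold mm
          apply Finset.prod_congr rfl
          intro b hb
          rw [xx_mul_swapE, xx_mul_swapE]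
          have hby : col c b ≠ y := fun h => hcol ⟨b, hb, h⟩
          show (if xor (row c b) (Function.update s y (!s y) (col c b)) = false then (1:ℝ) else 0) = _
          rw [Function.update_of_ne hby]
        rw [e1, e2]
      have hsum : ∑ s : ι → Bool, mm (insert a W) (c * swapE s) =
          (∑ s : ι → Bool, mm W (c * swapE s)) / 2 := by
        have h2 : ∑ s : ι → Bool, mm (insert a W) (c * swapE s) +
            ∑ s : ι → Bool, mm (insert a W) (c * swapE s) = ∑ s : ι → Bool, mm W (c * swapE s) := by
          nth_rewrite 2 [hflip]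
          rw [← Finset.sum_add_distrib]
          apply Finset.sum_congr rfl
          intro s _
          rw [mm_insert ha]
          ring
        linarith
      unfold opE
      rw [hsum]
      ring

/-! ### The recursion for `DD` -/

/-- Indicator that the cards `a`, `b` are in the same column. -/
def ss (a b : ι × Bool) (c : Equiv.Perm (ι × Bool)) : ℝ := if col c a = col c b then 1 else 0

theorem DD_insert {a : ι × Bool} {W : Finset (ι × Bool)} (ha : a ∉ W)
    (c : Equiv.Perm (ι × Bool)) :
    DD (insert a W) c = DD W c - ∑ b ∈ W, ss a b c * DD (W.erase b) c := by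
  by_cases hcol : ∃ b ∈ W, col c a = col c b
  · obtain ⟨b0, hb0, hab0⟩ := hcol
    have hne : a ≠ b0 := fun h => ha (h ▸ hb0)
    have huniq : ∀ b ∈ W, col c a = col c b → b = b0 := by
      intro b hb hab
      exact eq_of_col_eq c hab hab0 (fun h => ha (h ▸ hb)) hne
    have hD : DD (insert a W) c = 0 := by
      unfold DD
      rw [if_neg]
      intro hinj
      exact hne (hinj (by simp) (by simp [hb0]) hab0)
    have hsum : ∑ b ∈ W, ss a b c * DD (W.erase b) c = DD (W.erase b0) c := by
      rw [Finset.sum_eq_single b0]
      · unfold ss; rw [if_pos hab0, one_mul]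
      · intro b hb hbb
        have : col c a ≠ col c b := fun h => hbb (huniq b hb h)
        unfold ss; rw [if_neg this, zero_mul]
      · intro h; exact absurd hb0 h
    have hW : DD W c = DD (W.erase b0) c := by
      unfold DD
      have : Set.InjOn (col c) (↑W : Set (ι × Bool)) ↔
          Set.InjOn (col c) (↑(W.erase b0) : Set (ι × Bool)) := by
        constructor
        · intro h
          exact h.mono (by simp)
        · intro h
          have hWe : (↑W : Set (ι × Bool)) = insert b0 (↑(W.erase b0) : Set (ι × Bool)) := by
            rw [← Finset.coe_insert, Finset.insert_erase hb0]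
          rw [hWe, Set.injOn_insert (by simp)]
          refine ⟨h, ?_⟩
          rintro ⟨b', hb', hbb'⟩
          have hb'W : b' ∈ W := Finset.mem_of_mem_erase (Finset.mem_coe.mp hb')
          have hb'ne : b' ≠ b0 := Finset.ne_of_mem_erase (Finset.mem_coe.mp hb')
          exact hb'ne (huniq b' hb'W (hab0.trans hbb'.symm))
      simp only [this]
    rw [hD, hsum, hW, sub_self]
  · have hD : DD (insert a W) c = DD W c := by
      unfold DD
      have : Set.InjOn (col c) (↑(insert a W) : Set (ι × Bool)) ↔
          Set.InjOn (col c) (↑W : Set (ι × Bool)) := by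
        rw [Finset.coe_insert, Set.injOn_insert (by simpa using ha)]
        constructor
        · exact fun h => h.1
        · intro h
          refine ⟨h, ?_⟩
          rintro ⟨b, hb, hba⟩
          exact hcol ⟨b, by simpa using hb, hba.symm⟩
      simp only [this]
    have hsum : ∑ b ∈ W, ss a b c * DD (W.erase b) c = 0 := by
      apply Finset.sum_eq_zero
      intro b hb
      have : col c a ≠ col c b := fun h => hcol ⟨b, hb, h⟩
      unfold ss; rw [if_neg this, zero_mul]
    rw [hD, hsum, sub_zero]

end Crest.Agent.Helper2.Johnson
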