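import Crest.Agent.Helper2.Shuffle.JDefs

/-!
# S0222 pre-build (GAP), helper2: work package J — row-invariant functions are polynomials

`mem_VV_of_rowInvariant`: a function invariant under all permutations inside the rows is a function
of the top set, hence a combination of the monomials `mm T0`, `T0.card = card ι`.
-/

set_option autoImplicit false
set_option linter.unusedSectionVars false

namespace Crest.Agent.Helper2.Johnson

open Finset Crest.Agent.Helper13.Gap

variable {ι : Type*} [Fintype ι] [DecidableEq ι]

/-- The set of cards in the top row. -/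
def topSet (c : Equiv.Perm (ι × Bool)) : Finset (ι × Bool) :=
  Finset.univ.filter (fun a => row c a = false)

theorem mem_topSet (c : Equiv.Perm (ι × Bool)) (a : ι × Bool) :
    a ∈ topSet c ↔ row c a = false := by
  simp [topSet]

theorem card_topSet (c : Equiv.Perm (ι × Bool)) : (topSet c).card = Fintype.card ι := by
  have h : topSet c = (Finset.univ : Finset ι).map
      ⟨fun y => c (y, false), fun y y' h => (Prod.mk.inj (c.injective h)).1⟩ := by
    ext x
    simp only [mem_topSet, Finset.mem_map, Finset.mem_univ, true_and]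
    constructor
    · intro hx
      refine ⟨col c x, ?_⟩
      have : c.symm x = (col c x, false) := Prod.ext rfl hx
      show c (col c x, false) = x
      rw [← this, Equiv.apply_symm_apply]
    · rintro ⟨y, rfl⟩
      show (c.symm (c (y, false))).2 = false
      rw [Equiv.symm_apply_apply]
  rw [h, Finset.card_map, Finset.card_univ]

theorem mm_eq_ite (T0 : Finset (ι × Bool)) (c : Equiv.Perm (ι × Bool)) :
    mm T0 c = if T0 ⊆ topSet c then 1 else 0 := by
  by_cases h : T0 ⊆ topSet c
  · rw [if_pos h]
    unfold mm
    apply Finset.prod_eq_one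
    intro a ha
    unfold xx
    rw [if_pos ((mem_topSet c a).mp (h ha))]
  · rw [if_neg h]
    rw [Finset.not_subset] at h
    obtain ⟨a, ha, hna⟩ := h
    unfold mm
    apply Finset.prod_eq_zero ha
    unfold xx
    rw [if_neg (fun hr => hna ((mem_topSet c a).mpr hr))]

/-- A permutation of the positions that preserves the rows permutes the columns inside the rows. -/
theorem exists_rowsE (ρ : Equiv.Perm (ι × Bool)) (h : ∀ p, (ρ p).2 = p.2) :
    ∃ σ0 σ1 : Equiv.Perm ι, ρ = rowsE σ0 σ1 := by
  have h' : ∀ p, (ρ.symm p).2 = p.2 := by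
    intro p
    have := h (ρ.symm p)
    rw [Equiv.apply_symm_apply] at this
    exact this.symm
  let σ : Bool → Equiv.Perm ι := fun b =>
    { toFun := fun y => (ρ (y, b)).1
      invFun := fun y => (ρ.symm (y, b)).1
      left_inv := by
        intro y
        have e : ((ρ (y, b)).1, b) = ρ (y, b) := Prod.ext rfl (h (y, b)).symm
        show (ρ.symm ((ρ (y, b)).1, b)).1 = y
        rw [e, Equiv.symm_apply_apply]
      right_inv := by
        intro y
        have e : ((ρ.symm (y, b)).1, b) = ρ.symm (y, b) := Prod.ext rfl (h' (y, b)).symm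
        show (ρ ((ρ.symm (y, b)).1, b)).1 = y
        rw [e, Equiv.apply_symm_apply] }
  refine ⟨σ false, σ true, ?_⟩
  apply Equiv.ext
  rintro ⟨y, b⟩
  cases b
  · exact Prod.ext rfl (h (y, false))
  · exact Prod.ext rfl (h (y, true))

theorem exists_rowsE_of_topSet_eq (c c' : Equiv.Perm (ι × Bool)) (h : topSet c = topSet c') :
    ∃ σ0 σ1 : Equiv.Perm ι, c' = c * rowsE σ0 σ1 := by
  have hrow : ∀ x, row c x = row c' x := by
    intro x
    have h1 := mem_topSet c x
    have h2 := mem_topSet c' x
    rw [h] at h1
    have : row c x = false ↔ row c' x = false := h1.symm.trans h2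
    revert this
    cases row c x <;> cases row c' x <;> simp
  obtain ⟨σ0, σ1, hσ⟩ := exists_rowsE (c⁻¹ * c') (by
    intro p
    have := hrow (c' p)
    show (c.symm (c' p)).2 = p.2
    have e : row c' (c' p) = p.2 := by
      show (c'.symm (c' p)).2 = p.2
      rw [Equiv.symm_apply_apply]
    rw [← e, ← this]
    rfl)
  refine ⟨σ0, σ1, ?_⟩
  rw [← hσ, mul_inv_cancel_left]

theorem mem_VV_of_rowInvariant (f : Equiv.Perm (ι × Bool) → ℝ)
    (hf : ∀ (σ0 σ1 : Equiv.Perm ι) (c : Equiv.Perm (ι × Bool)), f (c * rowsE σ0 σ1) = f c) :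
    f ∈ VV ι (Fintype.card ι) := by
  classical
  have hfT : ∀ c c' : Equiv.Perm (ι × Bool), topSet c = topSet c' → f c' = f c := by
    intro c c' h
    obtain ⟨σ0, σ1, rfl⟩ := exists_rowsE_of_topSet_eq c c' h
    exact hf σ0 σ1 c
  let coef : Finset (ι × Bool) → ℝ := fun T0 =>
    if h : ∃ c : Equiv.Perm (ι × Bool), topSet c = T0 then f (Classical.choose h) else 0
  have hrep : f = ∑ T0 ∈ Finset.powersetCard (Fintype.card ι) (Finset.univ : Finset (ι × Bool)),
      coef T0 • mm T0 := by
    funext c
    rw [Finset.sum_apply]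
    have hTc : topSet c ∈ Finset.powersetCard (Fintype.card ι) (Finset.univ : Finset (ι × Bool)) := by
      rw [Finset.mem_powersetCard]
      exact ⟨Finset.subset_univ _, card_topSet c⟩
    rw [Finset.sum_eq_single (topSet c)]
    · have hex : ∃ c' : Equiv.Perm (ι × Bool), topSet c' = topSet c := ⟨c, rfl⟩
      have hc : coef (topSet c) = f c := by
        show (if h : ∃ c' : Equiv.Perm (ι × Bool), topSet c' = topSet c then
          f (Classical.choose h) else 0) = f c
        rw [dif_pos hex]
        exact hfT c _ (Classical.choose_spec hex).symm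
      rw [Pi.smul_apply, smul_eq_mul, hc, mm_eq_ite, if_pos (Finset.Subset.refl _), mul_one]
    · intro T0 hT0 hne
      rw [Finset.mem_powersetCard] at hT0
      rw [Pi.smul_apply, smul_eq_mul, mm_eq_ite, if_neg, mul_zero]
      intro hsub
      apply hne
      exact Finset.eq_of_subset_of_card_le hsub (by rw [card_topSet, hT0.2])
    · intro h
      exact absurd hTc h
  rw [hrep]
  apply Submodule.sum_mem
  intro T0 hT0
  rw [Finset.mem_powersetCard] at hT0
  exact Submodule.smul_mem _ _ (mm_mem_VV T0 (le_of_eq hT0.2))

/-- Conversely, the elements of the filtration are row-invariant. -/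
theorem rowInvariant_of_mem_VV {i : ℕ} {f : Equiv.Perm (ι × Bool) → ℝ} (hf : f ∈ VV ι i)
    (σ0 σ1 : Equiv.Perm ι) (c : Equiv.Perm (ι × Bool)) : f (c * rowsE σ0 σ1) = f c := by
  unfold VV at hf
  induction hf using Submodule.span_induction with
  | mem f h =>
    obtain ⟨W, _, rfl⟩ := h
    rfl
  | zero => rfl
  | add f g _ _ ihf ihg => simp only [Pi.add_apply, ihf, ihg]
  | smul r f _ ih => simp only [Pi.smul_apply, ih]

end Crest.Agent.Helper2.Johnson
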