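import Crest.Agent.Helper2.Shuffle.JCount

/-!
# S0222 pre-build (GAP), helper2: work package J — the symbol of `E` on monomials

For a row-invariant `u`:  `∑ opE (mm W) * u = (1/2)^|W| ∑ Q_W * u` with `Q_W` in the degree
filtration `VV |W|` and `Q_W ≡ tauJ |W| 0 • mm W` modulo lower degree (theorem `star`, `L = []`).
-/

set_option autoImplicit false
set_option linter.unusedSectionVars false

namespace Crest.Agent.Helper2.Johnson

open Finset Crest.Agent.Helper13.Gap

variable {ι : Type*} [Fintype ι] [DecidableEq ι]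

/-! ### Degree bookkeeping -/

theorem xx_mul_mm (a : ι × Bool) (W : Finset (ι × Bool)) :
    (fun c => xx a c * mm W c) = mm (insert a W) := by
  funext c
  by_cases ha : a ∈ W
  · rw [Finset.insert_eq_of_mem ha]
    have h : mm W c = xx a c * mm (W.erase a) c := by
      unfold mm
      exact (Finset.mul_prod_erase W (fun x => xx x c) ha).symm
    rw [h, ← mul_assoc, xx_sq]
  · rw [mm_insert ha]

theorem xx_mul_mem_VV (a : ι × Bool) {i : ℕ} {f : Equiv.Perm (ι × Bool) → ℝ}
    (hf : f ∈ VV ι i) : (fun c => xx a c * f c) ∈ VV ι (i + 1) := by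
  unfold VV at hf
  induction hf using Submodule.span_induction with
  | mem f h =>
    obtain ⟨W, hW, rfl⟩ := h
    rw [xx_mul_mm]
    apply mm_mem_VV
    exact le_trans (Finset.card_insert_le a W) (by omega)
  | zero =>
    have : (fun c : Equiv.Perm (ι × Bool) => xx a c * (0 : Equiv.Perm (ι × Bool) → ℝ) c) = 0 := by
      funext c; simp
    rw [this]
    exact Submodule.zero_mem _
  | add f g _ _ ihf ihg =>
    have : (fun c => xx a c * (f + g) c) = (fun c => xx a c * f c) + (fun c => xx a c * g c) := by
      funext c; simp [mul_add]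
    rw [this]
    exact Submodule.add_mem _ ihf ihg
  | smul r f _ ih =>
    have : (fun c => xx a c * (r • f) c) = r • (fun c => xx a c * f c) := by
      funext c; simp [mul_left_comm]
    rw [this]
    exact Submodule.smul_mem _ _ ih

theorem sep_mul_mem_VV (a b : ι × Bool) {i : ℕ} {f : Equiv.Perm (ι × Bool) → ℝ}
    (hf : f ∈ VV ι i) : (fun c => sep a b c * f c) ∈ VV ι (i + 2) := by
  have h1 : (fun c => xx a c * f c) ∈ VV ι (i + 2) := VV_mono (by omega) (xx_mul_mem_VV a hf)
  have h2 : (fun c => xx b c * f c) ∈ VV ι (i + 2) := VV_mono (by omega) (xx_mul_mem_VV b hf)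
  have h3 : (fun c => xx a c * (xx b c * f c)) ∈ VV ι (i + 2) :=
    xx_mul_mem_VV a (xx_mul_mem_VV b hf)
  have : (fun c => sep a b c * f c) =
      (fun c => xx a c * f c) + (fun c => xx b c * f c) -
        (2 : ℝ) • (fun c => xx a c * (xx b c * f c)) := by
    funext c
    simp only [sep, Pi.add_apply, Pi.sub_apply, Pi.smul_apply, smul_eq_mul]
    ring
  rw [this]
  exact Submodule.sub_mem _ (Submodule.add_mem _ h1 h2) (Submodule.smul_mem _ _ h3)

/-- The part of the filtration strictly below degree `n`. -/
def VVlt (ι : Type*) : ℕ → Submodule ℝ (Equiv.Perm (ι × Bool) → ℝ)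
  | 0 => ⊥
  | (n + 1) => VV ι n

theorem VVlt_le (n : ℕ) : VVlt ι n ≤ VV ι n := by
  cases n with
  | zero => exact bot_le
  | succ n => exact VV_mono (Nat.le_succ n)

theorem sep_mul_mem_of_VVlt (a b : ι × Bool) {k : ℕ} {f : Equiv.Perm (ι × Bool) → ℝ}
    (hf : f ∈ VVlt ι k) : (fun c => sep a b c * f c) ∈ VV ι (k + 1) := by
  cases k with
  | zero =>
    have h0 : f = 0 := by simpa [VVlt] using hf
    have : (fun c => sep a b c * f c) = 0 := by
      funext c; rw [h0]; simp
    rw [this]
    exact Submodule.zero_mem _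
  | succ j =>
    exact sep_mul_mem_VV a b hf

/-- Top coefficients: `tauJ M n p` is the coefficient of `mm W` (`|W| = n`) in `Q`, in the presence
of `p` earlier pairs. -/
noncomputable def tauJ (M : ℕ) : ℕ → ℕ → ℝ
  | 0, p => (PP M p)⁻¹
  | 1, _ => 0
  | (i + 2), p => 2 * ((i : ℝ) + 1) * tauJ M i (p + 1)

theorem tauJ_succ (M k p : ℕ) : tauJ M (k + 1) p = 2 * (k : ℝ) * tauJ M (k - 1) (p + 1) := by
  cases k with
  | zero => simp [tauJ]
  | succ j =>
    show tauJ M (j + 2) p = _
    rw [tauJ]
    push_cast
    simp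

/-! ### The symbol -/

theorem DD_empty (c : Equiv.Perm (ι × Bool)) : DD (∅ : Finset (ι × Bool)) c = 1 := by
  unfold DD
  rw [if_pos]
  simp

theorem mm_empty : mm (∅ : Finset (ι × Bool)) = fun _ => (1 : ℝ) := by
  funext c; simp [mm]

theorem star (n : ℕ) : ∀ (W : Finset (ι × Bool)), W.card = n → ∀ p : ℕ,
    ∃ Q : Equiv.Perm (ι × Bool) → ℝ, Q ∈ VV ι n ∧
      (Q - tauJ (Fintype.card ι) n p • mm W) ∈ VVlt ι n ∧
      ∀ (L : PairList ι), GoodL L → L.length = p → Disjoint (cardsL L) W →
        ∀ u : Equiv.Perm (ι × Bool) → ℝ,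
          (∀ (σ0 σ1 : Equiv.Perm ι) (c : Equiv.Perm (ι × Bool)), u (c * rowsE σ0 σ1) = u c) →
          ∑ c, sL L c * DD W c * u c = ∑ c, sepL L c * Q c * u c := by
  induction n using Nat.strong_induction_on with
  | _ n ih =>
  intro W hW p
  cases n with
  | zero =>
    have hW0 : W = ∅ := Finset.card_eq_zero.mp hW
    subst hW0
    refine ⟨(PP (Fintype.card ι) p)⁻¹ • mm ∅, ?_, ?_, ?_⟩
    · exact Submodule.smul_mem _ _ (mm_mem_VV ∅ (by simp))
    · have : (PP (Fintype.card ι) p)⁻¹ • mm (∅ : Finset (ι × Bool)) -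
          tauJ (Fintype.card ι) 0 p • mm ∅ = 0 := by
        rw [tauJ]; exact sub_self _
      rw [this]
      exact Submodule.zero_mem _
    · intro L hL hLp _ u hu
      have hpos : 0 < PP (Fintype.card ι) p := by
        apply PP_pos
        rw [← hLp]
        exact length_le_card L hL
      have h1 := count_pairs L hL u hu
      rw [hLp] at h1
      have e1 : ∑ c, sL L c * DD (∅ : Finset (ι × Bool)) c * u c = ∑ c, sL L c * u c := by
        apply Finset.sum_congr rfl
        intro c _
        rw [DD_empty, mul_one]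
      have e2 : ∑ c, sepL L c * ((PP (Fintype.card ι) p)⁻¹ • mm (∅ : Finset (ι × Bool))) c * u c =
          (PP (Fintype.card ι) p)⁻¹ * ∑ c, sepL L c * u c := by
        rw [Finset.mul_sum]
        apply Finset.sum_congr rfl
        intro c _
        rw [mm_empty]
        simp only [Pi.smul_apply, smul_eq_mul, mul_one]
        ring
      rw [e1, e2, h1, ← mul_assoc, inv_mul_cancel₀ (ne_of_gt hpos), one_mul]
  | succ k =>
    obtain ⟨a, W', haW', rfl, hW'⟩ := Finset.card_eq_succ.mp hW
    obtain ⟨Q1, hQ1mem, -, hQ1⟩ := ih k (Nat.lt_succ_self k) W' hW' p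
    have hIH2 : ∀ b ∈ W', ∃ Q : Equiv.Perm (ι × Bool) → ℝ, Q ∈ VV ι (k - 1) ∧
        (Q - tauJ (Fintype.card ι) (k - 1) (p + 1) • mm (W'.erase b)) ∈ VVlt ι (k - 1) ∧
        ∀ (L : PairList ι), GoodL L → L.length = p + 1 → Disjoint (cardsL L) (W'.erase b) →
          ∀ u : Equiv.Perm (ι × Bool) → ℝ,
            (∀ (σ0 σ1 : Equiv.Perm ι) (c : Equiv.Perm (ι × Bool)), u (c * rowsE σ0 σ1) = u c) →
            ∑ c, sL L c * DD (W'.erase b) c * u c = ∑ c, sepL L c * Q c * u c := by
      intro b hb
      have hk : 1 ≤ k := by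
        rw [← hW']; exact Finset.card_pos.mpr ⟨b, hb⟩
      exact ih (k - 1) (by omega) (W'.erase b)
        (by rw [Finset.card_erase_of_mem hb, hW']) (p + 1)
    choose Q2 hQ2mem hQ2top hQ2 using hIH2
    refine ⟨fun c => Q1 c - ∑ b ∈ W'.attach, sep a b.1 c * Q2 b.1 b.2 c, ?_, ?_, ?_⟩
    · -- membership
      have h1 : Q1 ∈ VV ι (k + 1) := VV_mono (Nat.le_succ k) hQ1mem
      have h2 : ∀ b ∈ W'.attach, (fun c => sep a b.1 c * Q2 b.1 b.2 c) ∈ VV ι (k + 1) := by
        intro b _
        have hk : 1 ≤ k := by
          rw [← hW']; exact Finset.card_pos.mpr ⟨b.1, b.2⟩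
        have := sep_mul_mem_VV a b.1 (hQ2mem b.1 b.2)
        have e : k - 1 + 2 = k + 1 := by omega
        rw [e] at this
        exact this
      have : (fun c => Q1 c - ∑ b ∈ W'.attach, sep a b.1 c * Q2 b.1 b.2 c) =
          Q1 - ∑ b ∈ W'.attach, (fun c => sep a b.1 c * Q2 b.1 b.2 c) := by
        funext c
        simp only [Pi.sub_apply, Finset.sum_apply]
      rw [this]
      exact Submodule.sub_mem _ h1 (Submodule.sum_mem _ h2)
    · -- top coefficient
      show _ ∈ VV ι k
      set τ' := tauJ (Fintype.card ι) (k - 1) (p + 1) with hτ'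
      have hbr : ∀ b ∈ W'.attach,
          (fun c => sep a b.1 c * Q2 b.1 b.2 c) + (2 * τ') • mm (insert a W') ∈ VV ι k := by
        intro b _
        have hb : b.1 ∈ W' := b.2
        have hk : 1 ≤ k := by
          rw [← hW']; exact Finset.card_pos.mpr ⟨b.1, hb⟩
        have hab : a ≠ b.1 := fun h => haW' (h ▸ hb)
        have hR := hQ2top b.1 b.2
        have hR' := sep_mul_mem_of_VVlt a b.1 hR
        have e : k - 1 + 1 = k := by omega
        rw [e] at hR'
        have hcard1 : (insert a (W'.erase b.1)).card ≤ k := by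
          rw [Finset.card_insert_of_notMem (fun h => haW' (Finset.mem_of_mem_erase h)),
            Finset.card_erase_of_mem hb, hW']
          omega
        have hm1 : mm (insert a (W'.erase b.1)) ∈ VV ι k := mm_mem_VV _ hcard1
        have hm2 : mm W' ∈ VV ι k := mm_mem_VV _ (le_of_eq hW')
        have hdecomp : (fun c => sep a b.1 c * Q2 b.1 b.2 c) + (2 * τ') • mm (insert a W') =
            (fun c => sep a b.1 c *
              (Q2 b.1 b.2 - τ' • mm (W'.erase b.1)) c) +
            τ' • (mm (insert a (W'.erase b.1)) + mm W') := by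
          funext c
          have hW'c : mm W' c = xx b.1 c * mm (W'.erase b.1) c := by
            unfold mm
            exact (Finset.mul_prod_erase W' (fun x => xx x c) hb).symm
          have hi1 : mm (insert a (W'.erase b.1)) c = xx a c * mm (W'.erase b.1) c :=
            mm_insert (fun h => haW' (Finset.mem_of_mem_erase h)) c
          have hi2 : mm (insert a W') c = xx a c * (xx b.1 c * mm (W'.erase b.1) c) := by
            rw [mm_insert haW', hW'c]
          simp only [Pi.add_apply, Pi.sub_apply, Pi.smul_apply, smul_eq_mul]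
          rw [hi1, hi2, hW'c]
          unfold sep
          ring
        rw [hdecomp]
        exact Submodule.add_mem _ hR' (Submodule.smul_mem _ _ (Submodule.add_mem _ hm1 hm2))
      have hQ1k : Q1 ∈ VV ι k := hQ1mem
      have hfinal : (fun c => Q1 c - ∑ b ∈ W'.attach, sep a b.1 c * Q2 b.1 b.2 c) -
          tauJ (Fintype.card ι) (k + 1) p • mm (insert a W') =
          Q1 - ∑ b ∈ W'.attach,
            ((fun c => sep a b.1 c * Q2 b.1 b.2 c) + (2 * τ') • mm (insert a W')) := by
        rw [tauJ_succ, ← hτ']
        funext c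
        rw [Pi.sub_apply, Pi.sub_apply, Pi.smul_apply, Finset.sum_apply]
        simp only [Pi.add_apply, Pi.smul_apply, smul_eq_mul]
        rw [Finset.sum_add_distrib, Finset.sum_const, Finset.card_attach, hW', nsmul_eq_mul]
        ring
      rw [hfinal]
      exact Submodule.sub_mem _ hQ1k (Submodule.sum_mem _ hbr)
    · -- the identity
      intro L hL hLp hdisj u hu
      have haL : a ∉ cardsL L := by
        intro h
        exact Finset.disjoint_left.mp hdisj h (Finset.mem_insert_self a W')
      have hbL : ∀ b ∈ W', b ∉ cardsL L := by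
        intro b hb h
        exact Finset.disjoint_left.mp hdisj h (Finset.mem_insert_of_mem hb)
      have hdisj' : Disjoint (cardsL L) W' :=
        Finset.disjoint_left.mpr (fun x hx hxW => hbL x hxW hx)
      have h1 := hQ1 L hL hLp hdisj' u hu
      have h2 : ∀ b ∈ W'.attach, ∑ c, sL L c * ss a b.1 c * DD (W'.erase b.1) c * u c =
          ∑ c, sepL L c * (sep a b.1 c * Q2 b.1 b.2 c) * u c := by
        intro b _
        have hb : b.1 ∈ W' := b.2
        have hab : a ≠ b.1 := fun h => haW' (h ▸ hb)
        have hGood : GoodL ((a, b.1) :: L) := ⟨hab, haL, hbL b.1 hb, hL⟩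
        have hlen : ((a, b.1) :: L).length = p + 1 := by simp [hLp]
        have hdj : Disjoint (cardsL ((a, b.1) :: L)) (W'.erase b.1) := by
          rw [Finset.disjoint_left]
          intro x hx hxW
          have hxW' : x ∈ W' := Finset.mem_of_mem_erase hxW
          have hxb : x ≠ b.1 := Finset.ne_of_mem_erase hxW
          simp only [cardsL, Finset.mem_insert] at hx
          rcases hx with hx | hx | hx
          · exact haW' (hx ▸ hxW')
          · exact hxb hx
          · exact hbL x hxW' hx
        have h := hQ2 b.1 b.2 ((a, b.1) :: L) hGood hlen hdj u hu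
        have e1 : ∑ c, sL L c * ss a b.1 c * DD (W'.erase b.1) c * u c =
            ∑ c, sL ((a, b.1) :: L) c * DD (W'.erase b.1) c * u c := by
          apply Finset.sum_congr rfl
          intro c _
          rw [sL_cons]
          ring
        have e2 : ∑ c, sepL L c * (sep a b.1 c * Q2 b.1 b.2 c) * u c =
            ∑ c, sepL ((a, b.1) :: L) c * Q2 b.1 b.2 c * u c := by
          apply Finset.sum_congr rfl
          intro c _
          rw [sepL_cons]
          ring
        rw [e1, e2, h]
      calc ∑ c, sL L c * DD (insert a W') c * u c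
          = ∑ c, (sL L c * DD W' c * u c -
              ∑ b ∈ W'.attach, sL L c * ss a b.1 c * DD (W'.erase b.1) c * u c) := by
            apply Finset.sum_congr rfl
            intro c _
            rw [DD_insert haW', ← Finset.sum_attach W' (fun b => ss a b c * DD (W'.erase b) c),
              mul_sub, sub_mul, Finset.mul_sum, Finset.sum_mul]
            congr 1
            apply Finset.sum_congr rfl
            intro b _
            ring
        _ = ∑ c, sL L c * DD W' c * u c -
              ∑ b ∈ W'.attach, ∑ c, sL L c * ss a b.1 c * DD (W'.erase b.1) c * u c := by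
            rw [Finset.sum_sub_distrib, Finset.sum_comm]
        _ = ∑ c, sepL L c * Q1 c * u c -
              ∑ b ∈ W'.attach, ∑ c, sepL L c * (sep a b.1 c * Q2 b.1 b.2 c) * u c := by
            rw [h1, Finset.sum_congr rfl h2]
        _ = ∑ c, (sepL L c * Q1 c * u c -
              ∑ b ∈ W'.attach, sepL L c * (sep a b.1 c * Q2 b.1 b.2 c) * u c) := by
            rw [Finset.sum_sub_distrib, Finset.sum_comm]
        _ = ∑ c, sepL L c * (Q1 c - ∑ b ∈ W'.attach, sep a b.1 c * Q2 b.1 b.2 c) * u c := by
            apply Finset.sum_congr rfl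
            intro c _
            rw [mul_sub, sub_mul, Finset.mul_sum, Finset.sum_mul]

end Crest.Agent.Helper2.Johnson
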