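import Crest.Agent.Helper2.Shuffle.JAbstract
import Crest.Agent.Helper2.Shuffle.JSpan
import Crest.Agent.Helper2.Shuffle.JStar

/-!
# S0222 pre-build (GAP), helper2: work package J — the Johnson-chain bound

`johnson : JohnsonStmt ι` for every finite type `ι` of columns (statement shape of
`Crest.Agent.Helper13.Gap`): a mean-zero function of the top set is contracted by the column-swap
average by the factor `1 / (2 * card ι)` (squared `L²` norm).

Proof: the degree filtration `VV ι i` (monomials `mm W`, `|W| ≤ i`) is triangular for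
`B(f, g) = ⟨E f, E g⟩`, with diagonal entries `(1/2)^n * tauJ M n 0` (`= (2r-1)!!/(2^r (M)_r)` for
`n = 2r`, `0` for odd `n`), which are `≤ 1/(2M)` for `1 ≤ n ≤ M`; then `filtration_bound`.
-/

set_option autoImplicit false
set_option linter.unusedSectionVars false

namespace Crest.Agent.Helper2.Johnson

open Finset Crest.Agent.Helper13.Gap

/-! ### The diagonal entries are at most `1 / (2 M)` -/

theorem PP_one (M : ℕ) : PP M 1 = (M : ℝ) := by
  rw [PP_succ, PP_zero]; simp

theorem half_pow_tauJ_le (M : ℕ) : ∀ n p : ℕ, 1 ≤ n → p + n ≤ M →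
    (1 / 2 : ℝ) ^ n * tauJ M n p ≤ 1 / (2 * PP M (p + 1)) := by
  intro n
  induction n using Nat.strong_induction_on with
  | _ n ih =>
  intro p hn hpn
  match n, hn, hpn, ih with
  | 1, _, hpn, _ =>
    have hpos : 0 < PP M (p + 1) := PP_pos M (p + 1) (by omega)
    rw [tauJ, mul_zero]
    positivity
  | 2, _, hpn, _ =>
    have hpos : 0 < PP M (p + 1) := PP_pos M (p + 1) (by omega)
    rw [tauJ, tauJ]
    apply le_of_eq
    field_simp
    ring
  | (i + 3), _, hpn, ih =>
    have hpos1 : 0 < PP M (p + 1) := PP_pos M (p + 1) (by omega)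
    have hpos2 : 0 < PP M (p + 2) := PP_pos M (p + 2) (by omega)
    have hIH := ih (i + 1) (by omega) (p + 1) (by omega) (by omega)
    have e : tauJ M (i + 3) p = 2 * (((i + 1 : ℕ) : ℝ) + 1) * tauJ M (i + 1) (p + 1) := by
      show tauJ M ((i + 1) + 2) p = _
      rw [tauJ]
    have hPP : PP M (p + 2) = PP M (p + 1) * ((M : ℝ) - (p + 1)) := by
      have := PP_succ M (p + 1)
      push_cast at this
      exact this
    have hMp : ((i : ℝ) + 2) ≤ (M : ℝ) - (p + 1) := by
      have : i + 2 + (p + 1) ≤ M := by omega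
      have h2 : ((i + 2 + (p + 1) : ℕ) : ℝ) ≤ (M : ℝ) := by exact_mod_cast this
      push_cast at h2
      linarith
    have hMp_pos : (0 : ℝ) < (M : ℝ) - (p + 1) := by
      have : (0 : ℝ) ≤ (i : ℝ) := Nat.cast_nonneg i
      linarith
    have hi0 : (0 : ℝ) ≤ (i : ℝ) := Nat.cast_nonneg i
    rw [e]
    have e2 : (1 / 2 : ℝ) ^ (i + 3) * (2 * (((i + 1 : ℕ) : ℝ) + 1) * tauJ M (i + 1) (p + 1)) =
        (((i : ℝ) + 2) / 2) * ((1 / 2 : ℝ) ^ (i + 1) * tauJ M (i + 1) (p + 1)) := by
      push_cast
      ring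
    rw [e2]
    have h1 : (((i : ℝ) + 2) / 2) * ((1 / 2 : ℝ) ^ (i + 1) * tauJ M (i + 1) (p + 1)) ≤
        (((i : ℝ) + 2) / 2) * (1 / (2 * PP M (p + 1 + 1))) :=
      mul_le_mul_of_nonneg_left hIH (by positivity)
    refine le_trans h1 ?_
    have e3 : p + 1 + 1 = p + 2 := rfl
    rw [e3, hPP]
    rw [div_mul_div_comm, div_le_div_iff₀ (by positivity) (by positivity)]
    have hx : ((i : ℝ) + 2) * 1 ≤ ((M : ℝ) - (p + 1)) * 2 := by linarith
    nlinarith [mul_le_mul_of_nonneg_left hx (le_of_lt hpos1)]

/-! ### The Johnson-chain bound -/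

theorem johnson (ι : Type*) [Fintype ι] [DecidableEq ι] : JohnsonStmt ι := by
  intro f hf hf0
  have hmem : f ∈ VV ι (Fintype.card ι) := mem_VV_of_rowInvariant f hf
  -- the bilinear form
  let B : (Equiv.Perm (ι × Bool) → ℝ) → (Equiv.Perm (ι × Bool) → ℝ) → ℝ :=
    fun f g => ∑ c, opE f c * opE g c
  have hB_symm : ∀ f g, B f g = B g f := by
    intro f g
    exact Finset.sum_congr rfl (fun c _ => mul_comm _ _)
  have hB_add : ∀ f g h, B (f + g) h = B f h + B g h := by
    intro f g h
    show ∑ c, opE (f + g) c * opE h c = ∑ c, opE f c * opE h c + ∑ c, opE g c * opE h c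
    rw [opE_add', ← Finset.sum_add_distrib]
    exact Finset.sum_congr rfl (fun c _ => by rw [Pi.add_apply, add_mul])
  have hB_smul : ∀ (r : ℝ) f h, B (r • f) h = r * B f h := by
    intro r f h
    show ∑ c, opE (r • f) c * opE h c = r * ∑ c, opE f c * opE h c
    rw [opE_smul, Finset.mul_sum]
    exact Finset.sum_congr rfl (fun c _ => by rw [Pi.smul_apply, smul_eq_mul, mul_assoc])
  have hB_eq : ∀ f g, B f g = ∑ c, opE f c * g c := fun f g => sum_opE_mul_opE f g
  let mu : ℕ → ℝ := fun n => (1 / 2 : ℝ) ^ n * tauJ (Fintype.card ι) n 0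
  -- level 0
  have h0 : ∀ v ∈ VV ι 0, ∀ u ∈ VV ι (Fintype.card ι), B v u = mu 0 * ∑ x, v x * u x := by
    intro v hv u _
    have hmu0 : mu 0 = 1 := by
      show (1 / 2 : ℝ) ^ 0 * tauJ (Fintype.card ι) 0 0 = 1
      rw [tauJ, PP_zero]; simp
    rw [hmu0, one_mul]
    unfold VV at hv
    induction hv using Submodule.span_induction with
    | mem v h =>
      obtain ⟨W, hW, rfl⟩ := h
      have hW0 : W = ∅ := Finset.card_eq_zero.mp (Nat.le_zero.mp hW)
      rw [hW0, hB_eq, mm_empty, opE_one]
    | zero =>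
      have := hB_smul 0 0 u
      simp only [zero_smul, zero_mul] at this
      rw [this]
      simp
    | add v w _ _ ihv ihw =>
      rw [hB_add, ihv, ihw, ← Finset.sum_add_distrib]
      exact Finset.sum_congr rfl (fun c _ => by rw [Pi.add_apply, add_mul])
    | smul r v _ ih =>
      rw [hB_smul, ih, Finset.mul_sum]
      exact Finset.sum_congr rfl (fun c _ => by rw [Pi.smul_apply, smul_eq_mul, mul_assoc])
  -- triangularity
  have hstep : ∀ i, i < Fintype.card ι → ∀ v ∈ VV ι (i + 1), ∃ w ∈ VV ι i,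
      ∀ u ∈ VV ι (Fintype.card ι), B v u = mu (i + 1) * ∑ x, v x * u x + ∑ x, w x * u x := by
    intro i _ v hv
    unfold VV at hv
    induction hv using Submodule.span_induction with
    | mem v h =>
      obtain ⟨W, hW, rfl⟩ := h
      obtain ⟨Q, hQmem, hQtop, hQ⟩ := star (ι := ι) W.card W rfl 0
      have hBQ : ∀ u ∈ VV ι (Fintype.card ι),
          B (mm W) u = (1 / 2 : ℝ) ^ W.card * ∑ c, Q c * u c := by
        intro u hu
        have h1 := hQ [] trivial rfl (by simp [cardsL]) u
          (fun σ0 σ1 c => rowInvariant_of_mem_VV hu σ0 σ1 c)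
        rw [hB_eq, Finset.mul_sum]
        have e1 : ∑ c, sL ([] : PairList ι) c * DD W c * u c = ∑ c, DD W c * u c :=
          Finset.sum_congr rfl (fun c _ => by rw [sL_nil, one_mul])
        have e2 : ∑ c, sepL ([] : PairList ι) c * Q c * u c = ∑ c, Q c * u c :=
          Finset.sum_congr rfl (fun c _ => by rw [sepL_nil, one_mul])
        rw [e1, e2] at h1
        have e3 : ∑ c, opE (mm W) c * u c = (1 / 2 : ℝ) ^ W.card * ∑ c, DD W c * u c := by
          rw [Finset.mul_sum]
          exact Finset.sum_congr rfl (fun c _ => by rw [opE_mm, mul_assoc])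
        rw [e3, h1, Finset.mul_sum]
      by_cases hWi : W.card = i + 1
      · refine ⟨(1 / 2 : ℝ) ^ (i + 1) • (Q - tauJ (Fintype.card ι) (i + 1) 0 • mm W), ?_, ?_⟩
        · apply Submodule.smul_mem
          have := hQtop
          rw [hWi] at this
          exact this
        · intro u hu
          rw [hBQ u hu, hWi]
          show _ = (1 / 2 : ℝ) ^ (i + 1) * tauJ (Fintype.card ι) (i + 1) 0 * ∑ x, mm W x * u x +
            ∑ x, ((1 / 2 : ℝ) ^ (i + 1) • (Q - tauJ (Fintype.card ι) (i + 1) 0 • mm W)) x * u x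
          have e : ∑ x, ((1 / 2 : ℝ) ^ (i + 1) • (Q - tauJ (Fintype.card ι) (i + 1) 0 • mm W)) x * u x
              = (1 / 2 : ℝ) ^ (i + 1) * ∑ x, Q x * u x -
                (1 / 2 : ℝ) ^ (i + 1) * tauJ (Fintype.card ι) (i + 1) 0 * ∑ x, mm W x * u x := by
            rw [Finset.mul_sum, Finset.mul_sum, ← Finset.sum_sub_distrib]
            apply Finset.sum_congr rfl
            intro x _
            simp only [Pi.smul_apply, Pi.sub_apply, smul_eq_mul]
            ring
          rw [e]
          ring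
      · have hWi' : W.card ≤ i := by omega
        refine ⟨(1 / 2 : ℝ) ^ W.card • Q - mu (i + 1) • mm W, ?_, ?_⟩
        · exact Submodule.sub_mem _ (Submodule.smul_mem _ _ (VV_mono hWi' hQmem))
            (Submodule.smul_mem _ _ (mm_mem_VV W hWi'))
        · intro u hu
          rw [hBQ u hu]
          have e : ∑ x, ((1 / 2 : ℝ) ^ W.card • Q - mu (i + 1) • mm W) x * u x
              = (1 / 2 : ℝ) ^ W.card * ∑ x, Q x * u x - mu (i + 1) * ∑ x, mm W x * u x := by
            rw [Finset.mul_sum, Finset.mul_sum, ← Finset.sum_sub_distrib]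
            apply Finset.sum_congr rfl
            intro x _
            simp only [Pi.smul_apply, Pi.sub_apply, smul_eq_mul]
            ring
          rw [e]
          ring
    | zero =>
      refine ⟨0, Submodule.zero_mem _, ?_⟩
      intro u _
      have := hB_smul 0 0 u
      simp only [zero_smul, zero_mul] at this
      rw [this]
      simp
    | add v w _ _ ihv ihw =>
      obtain ⟨wv, hwv, hv⟩ := ihv
      obtain ⟨ww, hww, hw⟩ := ihw
      refine ⟨wv + ww, Submodule.add_mem _ hwv hww, ?_⟩
      intro u hu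
      rw [hB_add, hv u hu, hw u hu]
      have e1 : ∑ x, (v + w) x * u x = ∑ x, v x * u x + ∑ x, w x * u x := by
        rw [← Finset.sum_add_distrib]
        exact Finset.sum_congr rfl (fun c _ => by rw [Pi.add_apply, add_mul])
      have e2 : ∑ x, (wv + ww) x * u x = ∑ x, wv x * u x + ∑ x, ww x * u x := by
        rw [← Finset.sum_add_distrib]
        exact Finset.sum_congr rfl (fun c _ => by rw [Pi.add_apply, add_mul])
      rw [e1, e2]
      ring
    | smul r v _ ih =>
      obtain ⟨wv, hwv, hv⟩ := ih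
      refine ⟨r • wv, Submodule.smul_mem _ _ hwv, ?_⟩
      intro u hu
      rw [hB_smul, hv u hu]
      have e1 : ∑ x, (r • v) x * u x = r * ∑ x, v x * u x := by
        rw [Finset.mul_sum]
        exact Finset.sum_congr rfl (fun c _ => by rw [Pi.smul_apply, smul_eq_mul, mul_assoc])
      have e2 : ∑ x, (r • wv) x * u x = r * ∑ x, wv x * u x := by
        rw [Finset.mul_sum]
        exact Finset.sum_congr rfl (fun c _ => by rw [Pi.smul_apply, smul_eq_mul, mul_assoc])
      rw [e1, e2]
      ring
  -- the diagonal entries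
  have hmu : ∀ i, i < Fintype.card ι → mu (i + 1) ≤ 1 / (2 * (Fintype.card ι : ℝ)) := by
    intro i hi
    have := half_pow_tauJ_le (Fintype.card ι) (i + 1) 0 (by omega) (by omega)
    rw [show (0 : ℕ) + 1 = 1 from rfl, PP_one] at this
    exact this
  -- orthogonality to the constants
  have hperp : ∀ u ∈ VV ι 0, ∑ x, f x * u x = 0 := by
    intro u hu
    unfold VV at hu
    induction hu using Submodule.span_induction with
    | mem u h =>
      obtain ⟨W, hW, rfl⟩ := h
      have hW0 : W = ∅ := Finset.card_eq_zero.mp (Nat.le_zero.mp hW)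
      rw [hW0, mm_empty]
      simpa using hf0
    | zero => simp
    | add v w _ _ ihv ihw =>
      have : ∑ x, f x * (v + w) x = ∑ x, f x * v x + ∑ x, f x * w x := by
        rw [← Finset.sum_add_distrib]
        exact Finset.sum_congr rfl (fun c _ => by rw [Pi.add_apply, mul_add])
      rw [this, ihv, ihw, add_zero]
    | smul r v _ ih =>
      have : ∑ x, f x * (r • v) x = r * ∑ x, f x * v x := by
        rw [Finset.mul_sum]
        exact Finset.sum_congr rfl (fun c _ => by rw [Pi.smul_apply, smul_eq_mul, mul_left_comm])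
      rw [this, ih, mul_zero]
  have key := filtration_bound B hB_symm hB_add hB_smul (VV ι)
    (fun i => VV_mono (Nat.le_succ i)) mu (1 / (2 * (Fintype.card ι : ℝ))) (Fintype.card ι)
    h0 hstep hmu f hmem hperp
  have e1 : ∑ c, (opE f c) ^ 2 = B f f :=
    Finset.sum_congr rfl (fun c _ => by rw [sq])
  have e2 : ∑ c, (f c) ^ 2 = ∑ x, f x * f x :=
    Finset.sum_congr rfl (fun c _ => by rw [sq])
  rw [e1, e2]
  exact key

/-- The work-package shape. -/
theorem johnson_fin : ∀ n : ℕ, JohnsonStmt (Fin n) := fun n => johnson (Fin n)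

end Crest.Agent.Helper2.Johnson
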